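import Vale.Agent.P237.Gauge

/-!
P237, the Fisher constraint in exact form.

For a body `K` with gauge `g`, `τ x = ⟪x, u⟫ / g x` is the height in direction `u` of the radial
projection of `x` to the boundary, and `exp (-g) / (n+1)!` is the cone measure, of total mass
`vol K`. The divergence theorem gives `∫_K dph(⟪x,u⟫) = (n+1) ∫ ph(τ) ∂_u g` against the cone measure.
With `Σ cᵢ uᵢ ⊗ uᵢ = id` and `B ⊆ K` (so `|∇g| ≤ 1`) this bounds a weighted sum of profile
functionals of the contact directions.
-/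

open MeasureTheory Set Filter Topology Real
open scoped RealInnerProductSpace Pointwise ENNReal Nat NNReal

namespace Vale.Agent.P237.Fisher

variable {n : ℕ}

/-- The height in direction `u` of the radial projection to the boundary. -/
noncomputable def tau (K : Set (E (n + 1))) (u x : E (n + 1)) : ℝ := ⟪x, u⟫ / gauge K x

/-- Integral against the cone measure of total mass `vol K`. -/
noncomputable def cone (K : Set (E (n + 1))) (h : E (n + 1) → ℝ) : ℝ :=
  (∫ x, exp (-gauge K x) * h x) / (n + 1) !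

variable {K : Set (E (n + 1))}

lemma gauge_pos_of_ne (hK : Cen K) {x : E (n + 1)} (hx : x ≠ 0) : 0 < gauge K x :=
  (gauge_pos hK.absorbs (NormedSpace.isVonNBounded_iff ℝ |>.2 hK.cpt.isBounded)).2 hx

lemma exists_norm_le (hK : Cen K) : ∃ R : ℝ, 0 ≤ R ∧ ∀ x, ‖x‖ ≤ R * gauge K x := by
  obtain ⟨R, hR⟩ := hK.cpt.isBounded.subset_closedBall (0 : E (n + 1))
  refine ⟨max R 1, by positivity, fun x => ?_⟩
  have h := le_gauge_of_subset_closedBall (x := x) hK.absorbs (r := max R 1) (by positivity)
    (hR.trans (Metric.closedBall_subset_closedBall (le_max_left _ _)))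
  rw [mul_comm]
  exact (div_le_iff₀ (lt_max_of_lt_right one_pos)).1 h

lemma exists_tau_bound (hK : Cen K) (u : E (n + 1)) : ∃ M : ℝ, 0 ≤ M ∧ ∀ x, |tau K u x| ≤ M := by
  obtain ⟨R, hR0, hR⟩ := exists_norm_le hK
  refine ⟨R * ‖u‖, by positivity, fun x => ?_⟩
  rcases eq_or_ne x 0 with rfl | hx
  · simp [tau]; positivity
  rw [tau, abs_div, abs_of_pos (gauge_pos_of_ne hK hx), div_le_iff₀ (gauge_pos_of_ne hK hx)]
  calc |⟪x, u⟫| ≤ ‖x‖ * ‖u‖ := abs_real_inner_le_norm x u
    _ ≤ R * gauge K x * ‖u‖ := by gcongr; exact hR x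
    _ = R * ‖u‖ * gauge K x := by ring

lemma measurable_tau (hK : Cen K) (u : E (n + 1)) : Measurable (tau K u) :=
  (measurable_id.inner_const (c := u)).div hK.continuous_g.measurable

lemma gauge_smul' (K : Set (E (n + 1))) {r : ℝ} (hr : 0 ≤ r) (x : E (n + 1)) :
    gauge K (r • x) = r * gauge K x := by
  rw [gauge_smul_of_nonneg hr, smul_eq_mul]

lemma tau_smul (K : Set (E (n + 1))) (u x : E (n + 1)) {r : ℝ} (hr : 0 < r) :
    tau K u (r • x) = tau K u x := by
  rw [tau, tau, gauge_smul' K hr.le, real_inner_smul_left, mul_div_mul_left _ _ hr.ne']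

lemma gr_smul (K : Set (E (n + 1))) (x : E (n + 1)) {r : ℝ} (hr : 0 < r) :
    gr K (r • x) = gr K x := by
  unfold gr
  congr 1
  have h1 : (fun y => gauge K (r • y)) = fun y => r • gauge K y := by
    funext y; rw [gauge_smul' K hr.le, smul_eq_mul]
  have h2 := fderiv_comp_smul (𝕜 := ℝ) (f := gauge K) (x := x) r
  rw [h1, show (fun y => r • gauge K y) = r • gauge K from rfl,
    fderiv_const_smul_field] at h2
  exact (smul_right_injective _ hr.ne' h2).symm

lemma exists_gu_bound (hK : Cen K) (u : E (n + 1)) : ∃ C : ℝ, 0 ≤ C ∧ ∀ x, |⟪gr K x, u⟫| ≤ C := by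
  obtain ⟨C, hC0, hC⟩ := hK.exists_bound
  exact ⟨C * ‖u‖, by positivity, fun x =>
    (abs_real_inner_le_norm _ _).trans (by gcongr; exact hC x)⟩

lemma integrable_cone (hK : Cen K) {h : E (n + 1) → ℝ} (hm : Measurable h)
    (hb : ∃ B, ∀ x, |h x| ≤ B) : Integrable fun x => exp (-gauge K x) * h x := by
  obtain ⟨B, hB⟩ := hb
  exact hK.integrable_exp.mul_bdd hm.aestronglyMeasurable (c := B) (Eventually.of_forall hB)

lemma integrable_g_exp (hK : Cen K) : Integrable fun x => gauge K x * exp (-gauge K x) := by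
  have h : Integrable fun x : E (n + 1) => 2 * exp (-gauge K ((2 : ℝ)⁻¹ • x)) :=
    (hK.integrable_exp.comp_smul (by norm_num)).const_mul 2
  refine h.mono' (hK.continuous_g.mul hK.continuous_g.neg.rexp).aestronglyMeasurable
    (Eventually.of_forall fun x => ?_)
  have h0 := gauge_nonneg (s := K) x
  rw [Real.norm_eq_abs, abs_of_nonneg (by positivity), gauge_smul' K (by norm_num)]
  have h1 := add_one_le_exp (gauge K x / 2)
  calc gauge K x * exp (-gauge K x) ≤ (2 * exp (gauge K x / 2)) * exp (-gauge K x) := by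
        gcongr; linarith
    _ = 2 * exp (-(2⁻¹ * gauge K x)) := by rw [mul_assoc, ← exp_add]; ring_nf

/-- For a function homogeneous of degree zero, multiplying by the gauge multiplies the integral by
the dimension. -/
lemma integral_g_exp (hK : Cen K) {h : E (n + 1) → ℝ} (hm : Measurable h)
    (hb : ∃ B, ∀ x, |h x| ≤ B) (hh : ∀ (x : E (n + 1)) (r : ℝ), 0 < r → h (r • x) = h x) :
    ∫ x, exp (-gauge K x) * (gauge K x * h x) = (n + 1 : ℝ) * ∫ x, exp (-gauge K x) * h x := by
  obtain ⟨B, hB⟩ := hb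
  set I := ∫ x, exp (-gauge K x) * (gauge K x * h x) with hI
  set P : E (n + 1) → ℝ → ℝ := fun x s => exp (-(s * gauge K x)) * (gauge K x * h x) with hP
  have hms : AEStronglyMeasurable (Function.uncurry P)
      (volume.prod (volume.restrict (Ioi (1 : ℝ)))) := by
    apply Measurable.aestronglyMeasurable
    exact (((measurable_snd.mul (hK.continuous_g.measurable.comp measurable_fst)).neg).exp).mul
      ((hK.continuous_g.measurable.comp measurable_fst).mul (hm.comp measurable_fst))
  have hinner : ∀ x : E (n + 1), x ≠ 0 →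
      IntegrableOn (fun s => P x s) (Ioi 1) ∧
        ∫ s in Ioi (1 : ℝ), P x s = exp (-gauge K x) * h x := by
    intro x hx
    have hg := gauge_pos_of_ne hK hx
    have h1 : IntegrableOn (fun s : ℝ => exp (-gauge K x * s)) (Ioi 1) :=
      exp_neg_integrableOn_Ioi 1 hg
    have h2 := integral_exp_mul_Ioi (a := -gauge K x) (by linarith) 1
    refine ⟨?_, ?_⟩
    · refine IntegrableOn.congr_fun (h1.mul_const (gauge K x * h x)) (fun s _ => ?_) measurableSet_Ioi
      simp only [hP]; ring_nf
    · simp only [hP]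
      rw [integral_mul_const, show (fun s : ℝ => exp (-(s * gauge K x))) =
        fun s => exp (-gauge K x * s) by funext s; ring_nf, h2]
      field_simp
  have hae : ∀ᵐ x : E (n + 1), x ≠ 0 := by
    simp [ae_iff]
  have hint : Integrable (Function.uncurry P) (volume.prod (volume.restrict (Ioi (1 : ℝ)))) := by
    rw [integrable_prod_iff hms]
    refine ⟨by filter_upwards [hae] with x hx; exact (hinner x hx).1, ?_⟩
    refine (hK.integrable_exp.mul_const B).mono' hms.norm.integral_prod_right' ?_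
    filter_upwards [hae] with x hx
    have hg := gauge_pos_of_ne hK hx
    rw [Real.norm_eq_abs, abs_of_nonneg (integral_nonneg fun s => norm_nonneg _)]
    simp only [Function.uncurry, hP, norm_mul, Real.norm_eq_abs, abs_exp, abs_of_pos hg]
    rw [integral_mul_const, show (fun s : ℝ => exp (-(s * gauge K x))) =
      fun s => exp (-gauge K x * s) by funext s; ring_nf,
      integral_exp_mul_Ioi (a := -gauge K x) (by linarith) 1]
    calc -exp (-gauge K x * 1) / -gauge K x * (gauge K x * |h x|)
        = exp (-gauge K x) * |h x| := by field_simp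
      _ ≤ exp (-gauge K x) * B := by gcongr; exact hB x
  have hswap := integral_integral_swap hint
  have hL : ∫ x, ∫ s in Ioi (1 : ℝ), P x s = ∫ x, exp (-gauge K x) * h x :=
    integral_congr_ae (by filter_upwards [hae] with x hx; exact (hinner x hx).2)
  have hR : ∀ s ∈ Ioi (1 : ℝ), ∫ x, P x s = s ^ (-((n : ℝ) + 2)) * I := by
    intro s hs
    have hs0 : (0 : ℝ) < s := lt_trans one_pos hs
    have e : (fun x : E (n + 1) => P x s) =
        fun x => s⁻¹ * (exp (-gauge K (s • x)) * (gauge K (s • x) * h (s • x))) := by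
      funext x
      simp only [hP, gauge_smul' K hs0.le, hh x s hs0]
      field_simp
    rw [e, integral_const_mul, Measure.integral_comp_smul_of_nonneg volume
      (fun x => exp (-gauge K x) * (gauge K x * h x)) s (hR := hs0.le), finrank_euclideanSpace_fin,
      smul_eq_mul, ← mul_assoc, ← hI, rpow_neg hs0.le,
      show (n : ℝ) + 2 = ((n + 2 : ℕ) : ℝ) by push_cast; ring, rpow_natCast, ← mul_inv,
      ← pow_succ']
  rw [hL, setIntegral_congr_fun measurableSet_Ioi hR, integral_mul_const,
    integral_Ioi_rpow_of_lt (by linarith [(Nat.cast_nonneg n : (0 : ℝ) ≤ n)]) one_pos,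
    one_rpow] at hswap
  rw [hswap]
  have : (n : ℝ) + 1 ≠ 0 := by positivity
  rw [show -((n : ℝ) + 2) + 1 = -((n : ℝ) + 1) by ring]
  field_simp

/-- Derivative of `exp (-g) g ph(τ)` along `u`. -/
lemma hasLineDeriv_test (hK : Cen K) (u : E (n + 1)) {ph dph : ℝ → ℝ}
    (hph : ∀ t, HasDerivAt ph (dph t) t) {x : E (n + 1)} (hd : DifferentiableAt ℝ (gauge K) x)
    (hx : x ≠ 0) :
    HasDerivAt (fun t : ℝ => exp (-gauge K (x + t • u)) *
        (gauge K (x + t • u) * ph (tau K u (x + t • u))))
      (exp (-gauge K x) * (dph (tau K u x) * (‖u‖ ^ 2 - tau K u x * ⟪gr K x, u⟫) +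
        ph (tau K u x) * ⟪gr K x, u⟫ - gauge K x * (ph (tau K u x) * ⟪gr K x, u⟫))) 0 := by
  set D := ⟪gr K x, u⟫ with hD
  have hg : HasDerivAt (fun t : ℝ => gauge K (x + t • u)) D 0 := by
    rw [hD, inner_gr]
    exact hd.hasFDerivAt.hasLineDerivAt u
  have hgx := gauge_pos_of_ne hK hx
  have hl : HasDerivAt (fun t : ℝ => ⟪x + t • u, u⟫) (‖u‖ ^ 2) 0 := by
    simpa [inner_add_left, real_inner_smul_left] using
      ((hasDerivAt_id (0 : ℝ)).mul_const (⟪u, u⟫)).const_add ⟪x, u⟫
  have htau := hl.div hg (by simpa using hgx.ne')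
  have hph := (hph (tau K u x)).comp_of_eq (0 : ℝ) htau (by simp [tau])
  have h := hg.neg.exp.mul (hg.mul hph)
  have e0 : x + (0 : ℝ) • u = x := by simp
  refine h.congr_deriv ?_
  simp only [Pi.neg_apply, Pi.mul_apply, Function.comp_apply, Pi.div_apply, e0]
  rw [show ⟪x, u⟫ / gauge K x = tau K u x from rfl]
  have : ⟪x, u⟫ = tau K u x * gauge K x := by rw [tau]; field_simp
  rw [this]
  field_simp
  ring

/-- Lipschitz bound for `g ph(τ)`. -/
lemma test_lip (hK : Cen K) (u : E (n + 1)) {ph dph : ℝ → ℝ}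
    (hph : ∀ t, HasDerivAt ph (dph t) t) (hphc : Continuous dph) :
    ∃ L B : ℝ, 0 ≤ L ∧ 0 ≤ B ∧ (∀ x, |ph (tau K u x)| ≤ B) ∧
      ∀ x y, |gauge K x * ph (tau K u x) - gauge K y * ph (tau K u y)| ≤ L * ‖x - y‖ := by
  obtain ⟨C, hC⟩ := hK.exists_lip
  obtain ⟨M, hM0, hM⟩ := exists_tau_bound hK u
  have hphcont : Continuous ph := continuous_iff_continuousAt.2 fun t => (hph t).continuousAt
  obtain ⟨B, hB⟩ := (isCompact_Icc (a := -M) (b := M)).exists_bound_of_continuousOn
    hphcont.continuousOn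
  obtain ⟨D, hD⟩ := (isCompact_Icc (a := -M) (b := M)).exists_bound_of_continuousOn
    hphc.continuousOn
  have hmem : ∀ x, tau K u x ∈ Icc (-M) M := fun x => abs_le.1 (hM x)
  have hB0 : 0 ≤ B := (norm_nonneg _).trans (hB _ (hmem 0))
  have hD0 : 0 ≤ D := (norm_nonneg _).trans (hD _ (hmem 0))
  refine ⟨C * B + D * (‖u‖ + M * C), B, by positivity, hB0, fun x => hB _ (hmem x), ?_⟩
  have hlip : ∀ x y, |gauge K x - gauge K y| ≤ C * ‖x - y‖ := fun x y => by
    have h := hC.dist_le_mul x y
    rwa [Real.dist_eq, dist_eq_norm] at h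
  have hmv : ∀ a ∈ Icc (-M) M, ∀ b ∈ Icc (-M) M, |ph a - ph b| ≤ D * |a - b| := fun a ha b hb =>
    (convex_Icc (-M) M).norm_image_sub_le_of_norm_hasDerivWithin_le
      (fun t _ => (hph t).hasDerivWithinAt) hD hb ha
  have key : ∀ x y, gauge K y ≤ gauge K x →
      |gauge K x * ph (tau K u x) - gauge K y * ph (tau K u y)| ≤
        (C * B + D * (‖u‖ + M * C)) * ‖x - y‖ := by
    intro x y hxy
    have hy0 := gauge_nonneg (s := K) y
    rcases eq_or_ne x 0 with rfl | hx
    · have : gauge K y = 0 := le_antisymm (by simpa using hxy) hy0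
      simp only [gauge_zero, this, zero_mul, sub_zero, abs_zero]
      positivity
    have hgx := gauge_pos_of_ne hK hx
    have hty : tau K u y * gauge K y = ⟪y, u⟫ := by
      rcases eq_or_ne y 0 with rfl | hy
      · simp
      · rw [tau, div_mul_cancel₀ _ (gauge_pos_of_ne hK hy).ne']
    have htx : tau K u x * gauge K x = ⟪x, u⟫ := by rw [tau, div_mul_cancel₀ _ hgx.ne']
    have e1 : gauge K y * (tau K u x - tau K u y) =
        gauge K y / gauge K x * ⟪x - y, u⟫ +
          tau K u y * gauge K y * ((gauge K y - gauge K x) / gauge K x) := by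
      rw [inner_sub_left, ← hty, ← htx]
      field_simp
      ring
    have hq : gauge K y / gauge K x ≤ 1 := (div_le_one hgx).2 hxy
    have h1 : gauge K y * |tau K u x - tau K u y| ≤ (‖u‖ + M * C) * ‖x - y‖ := by
      rw [← abs_of_nonneg hy0, ← abs_mul, e1]
      refine (abs_add_le _ _).trans ?_
      rw [add_mul]
      refine add_le_add ?_ ?_
      · rw [abs_mul, abs_of_nonneg (div_nonneg hy0 hgx.le), mul_comm ‖u‖]
        exact (mul_le_of_le_one_left (abs_nonneg _) hq).trans (abs_real_inner_le_norm _ _)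
      · rw [mul_div_assoc', mul_comm (tau K u y * _), abs_div, abs_mul, abs_mul,
          abs_of_nonneg hy0, abs_of_pos hgx, div_le_iff₀ hgx]
        calc |gauge K y - gauge K x| * (|tau K u y| * gauge K y)
            ≤ (C * ‖x - y‖) * (M * gauge K x) := by
              refine mul_le_mul ?_ ?_ (by positivity) (by positivity)
              · rw [abs_sub_comm]; exact hlip x y
              · exact mul_le_mul (hM y) hxy hy0 hM0
          _ = M * C * ‖x - y‖ * gauge K x := by ring
    calc |gauge K x * ph (tau K u x) - gauge K y * ph (tau K u y)|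
        = |(gauge K x - gauge K y) * ph (tau K u x) +
            gauge K y * (ph (tau K u x) - ph (tau K u y))| := by ring_nf
      _ ≤ |gauge K x - gauge K y| * |ph (tau K u x)| +
            gauge K y * |ph (tau K u x) - ph (tau K u y)| := by
          refine (abs_add_le _ _).trans (le_of_eq ?_)
          rw [abs_mul, abs_mul, abs_of_nonneg hy0]
      _ ≤ C * ‖x - y‖ * B + gauge K y * (D * |tau K u x - tau K u y|) := by
          gcongr
          · exact hlip x y
          · exact hB _ (hmem x)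
          · exact hmv _ (hmem x) _ (hmem y)
      _ ≤ C * ‖x - y‖ * B + D * ((‖u‖ + M * C) * ‖x - y‖) := by
          rw [mul_left_comm]; gcongr
      _ = _ := by ring
  intro x y
  rcases le_total (gauge K y) (gauge K x) with h | h
  · exact key x y h
  · rw [abs_sub_comm, norm_sub_rev]; exact key y x h

/-- The divergence theorem on the boundary: `∫ dph(τ) (|u|² - τ ∂g) = n ∫ ph(τ) ∂g`. -/
theorem cone_divergence (hK : Cen K) (u : E (n + 1)) {ph dph : ℝ → ℝ}
    (hph : ∀ t, HasDerivAt ph (dph t) t) (hphc : Continuous dph) :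
    cone K (fun x => dph (tau K u x) * (‖u‖ ^ 2 - tau K u x * ⟪gr K x, u⟫)) =
      (n : ℝ) * cone K (fun x => ph (tau K u x) * ⟪gr K x, u⟫) := by
  obtain ⟨L, B, hL0, hB0, hB, hlip⟩ := test_lip hK u hph hphc
  obtain ⟨C, hC⟩ := hK.exists_lip
  obtain ⟨M, hM0, hM⟩ := exists_tau_bound hK u
  obtain ⟨C', hC'0, hC'⟩ := exists_gu_bound hK u
  obtain ⟨D, hD⟩ := (isCompact_Icc (a := -M) (b := M)).exists_bound_of_continuousOn
    hphc.continuousOn
  have hD' : ∀ x, |dph (tau K u x)| ≤ D := fun x => hD _ (abs_le.1 (hM x))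
  set G : E (n + 1) → ℝ := fun x => exp (-gauge K x) * (gauge K x * ph (tau K u x)) with hG
  have hphcont : Continuous ph := continuous_iff_continuousAt.2 fun t => (hph t).continuousAt
  have hmgu : Measurable fun x => ⟪gr K x, u⟫ := (measurable_gr K).inner_const
  have hmt := measurable_tau hK u
  set h1 : E (n + 1) → ℝ := fun x => dph (tau K u x) * (‖u‖ ^ 2 - tau K u x * ⟪gr K x, u⟫)
    with hh1
  set h2 : E (n + 1) → ℝ := fun x => ph (tau K u x) * ⟪gr K x, u⟫ with hh2
  have hm1 : Measurable h1 :=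
    (hphc.measurable.comp hmt).mul (measurable_const.sub (hmt.mul hmgu))
  have hm2 : Measurable h2 := (hphcont.measurable.comp hmt).mul hmgu
  have hb1 : ∃ b, ∀ x, |h1 x| ≤ b := ⟨D * (‖u‖ ^ 2 + M * C'), fun x => by
    rw [hh1, abs_mul]
    refine mul_le_mul (hD' x) ((abs_sub _ _).trans ?_) (abs_nonneg _)
      ((abs_nonneg _).trans (hD' x))
    rw [abs_of_nonneg (sq_nonneg ‖u‖), abs_mul]
    gcongr
    · exact hM x
    · exact hC' x⟩
  have hb2 : ∃ b, ∀ x, |h2 x| ≤ b := ⟨B * C', fun x => by
    rw [hh2, abs_mul]; gcongr; exacts [hB x, hC' x]⟩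
  have hGm : Measurable G :=
    hK.continuous_g.neg.rexp.measurable.mul
      (hK.continuous_g.measurable.mul (hphcont.measurable.comp hmt))
  have hGi : Integrable G := by
    refine ((integrable_g_exp hK).const_mul B).mono' hGm.aestronglyMeasurable
      (Eventually.of_forall fun x => ?_)
    rw [hG, norm_mul, norm_mul, Real.norm_eq_abs, Real.norm_eq_abs, Real.norm_eq_abs, abs_exp,
      abs_of_nonneg (gauge_nonneg x)]
    nlinarith [mul_nonneg (exp_pos (-gauge K x)).le (gauge_nonneg (s := K) x), hB x]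
  -- translation invariance
  have hzero : ∀ t : ℝ, ∫ x, t⁻¹ * (G (x + t • u) - G x) = 0 := by
    intro t
    rw [integral_const_mul, integral_sub (hGi.comp_add_right _) hGi,
      integral_add_right_eq_self G, sub_self, mul_zero]
  set c : ℝ := C * ‖u‖ with hc
  have hlim : Tendsto (fun t : ℝ => ∫ x, t⁻¹ * (G (x + t • u) - G x)) (𝓝[>] 0)
      (𝓝 (∫ x, exp (-gauge K x) * (h1 x + h2 x - gauge K x * h2 x))) := by
    refine tendsto_integral_filter_of_dominated_convergence
      (fun x => exp c * c * B * (exp (-gauge K x) * gauge K x) +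
        (exp c * c * B * c + L * ‖u‖) * exp (-gauge K x)) ?_ ?_ ?_ ?_
    · exact Eventually.of_forall fun t =>
        ((hGm.comp (measurable_id.add_const _)).sub hGm).const_mul _ |>.aestronglyMeasurable
    · filter_upwards [Ioc_mem_nhdsGT (zero_lt_one (α := ℝ))] with t ht
      refine Eventually.of_forall fun x => ?_
      set x' := x + t • u with hx'
      have hd : ‖x' - x‖ = t * ‖u‖ := by simp [hx', norm_smul, abs_of_pos ht.1]
      have hgd : |gauge K x' - gauge K x| ≤ t * c := by
        have h := hC.dist_le_mul x' x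
        rw [Real.dist_eq, dist_eq_norm, hd] at h
        calc _ ≤ (C : ℝ) * (t * ‖u‖) := h
          _ = t * c := by rw [hc]; ring
      have hc0 : 0 ≤ c := by positivity
      have htc : t * c ≤ c := mul_le_of_le_one_left hc0 ht.2
      have he : |exp (-gauge K x') - exp (-gauge K x)| ≤
          exp (-gauge K x) * (exp c * (t * c)) := by
        have e : exp (-gauge K x') =
            exp (-gauge K x) * exp (gauge K x - gauge K x') := by rw [← exp_add]; ring_nf
        rw [e, show exp (-gauge K x) * exp (gauge K x - gauge K x') - exp (-gauge K x) =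
          exp (-gauge K x) * (exp (gauge K x - gauge K x') - 1) by ring, abs_mul, abs_exp]
        gcongr
        set d := gauge K x - gauge K x'
        have hd1 : |d| ≤ t * c := by rw [abs_sub_comm]; exact hgd
        obtain ⟨hd2, hd3⟩ := abs_le.1 hd1
        have h1e : (1 : ℝ) ≤ exp c := one_le_exp hc0
        rcases le_total 0 d with hd0 | hd0
        · rw [abs_of_nonneg (by linarith [add_one_le_exp d])]
          have h2e : exp d - 1 ≤ d * exp d := by
            have := add_one_le_exp (-d)
            rw [exp_neg] at this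
            have hp := exp_pos d
            have : (1 - d) * exp d ≤ 1 := by
              calc (1 - d) * exp d ≤ (exp d)⁻¹ * exp d := by gcongr; linarith
                _ = 1 := inv_mul_cancel₀ hp.ne'
            linarith
          calc exp d - 1 ≤ d * exp d := h2e
            _ ≤ (t * c) * exp c :=
              mul_le_mul hd3 (exp_le_exp.2 (hd3.trans htc)) (exp_pos _).le (mul_nonneg ht.1.le hc0)
            _ = exp c * (t * c) := mul_comm _ _
        · rw [abs_of_nonpos (by linarith [exp_le_one_iff.2 hd0])]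
          nlinarith [add_one_le_exp d]
      have hF : |gauge K x' * ph (tau K u x')| ≤ B * (gauge K x + c) := by
        rw [abs_mul, abs_of_nonneg (gauge_nonneg x'), mul_comm B]
        refine mul_le_mul ?_ (hB x') (abs_nonneg _) (add_nonneg (gauge_nonneg x) hc0)
        linarith [abs_le.1 hgd]
      have hΔ := hlip x' x
      rw [hd] at hΔ
      have hmain : |G x' - G x| ≤ t * (exp c * c * B * (exp (-gauge K x) * gauge K x) +
          (exp c * c * B * c + L * ‖u‖) * exp (-gauge K x)) := by
        calc |G x' - G x| = |(exp (-gauge K x') - exp (-gauge K x)) *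
              (gauge K x' * ph (tau K u x')) + exp (-gauge K x) *
              (gauge K x' * ph (tau K u x') - gauge K x * ph (tau K u x))| := by
              simp only [hG]; ring_nf
          _ ≤ exp (-gauge K x) * (exp c * (t * c)) * (B * (gauge K x + c)) +
              exp (-gauge K x) * (L * (t * ‖u‖)) := by
              refine (abs_add_le _ _).trans (add_le_add ?_ ?_)
              · rw [abs_mul]
                exact mul_le_mul he hF (abs_nonneg _) (mul_nonneg (exp_pos _).le
                  (mul_nonneg (exp_pos _).le (mul_nonneg ht.1.le hc0)))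
              · rw [abs_mul, abs_exp]
                exact mul_le_mul_of_nonneg_left hΔ (exp_pos _).le
          _ = _ := by ring
      rw [norm_mul, norm_inv, Real.norm_eq_abs, Real.norm_eq_abs, abs_of_pos ht.1,
        inv_mul_le_iff₀ ht.1]
      exact hmain
    · refine ((integrable_g_exp hK).const_mul (exp c * c * B)).congr ?_ |>.add
        (hK.integrable_exp.const_mul _)
      exact Eventually.of_forall fun x => by simp only; ring
    · filter_upwards [hK.ae_diff, (show ∀ᵐ x : E (n + 1), x ≠ 0 by simp [ae_iff])] with x hd hx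
      have h := hasLineDeriv_test hK u hph hd hx
      rw [show exp (-gauge K x) * (h1 x + h2 x - gauge K x * h2 x) = exp (-gauge K x) *
        (dph (tau K u x) * (‖u‖ ^ 2 - tau K u x * ⟪gr K x, u⟫) +
        ph (tau K u x) * ⟪gr K x, u⟫ - gauge K x * (ph (tau K u x) * ⟪gr K x, u⟫)) from rfl]
      refine (h.tendsto_slope_zero_right).congr fun t => ?_
      simp [hG]
  simp only [hzero] at hlim
  have h0 := (tendsto_const_nhds_iff.1 hlim).symm
  have hi1 := integrable_cone hK hm1 hb1
  have hi2 := integrable_cone hK hm2 hb2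
  have hi3 : Integrable fun x => exp (-gauge K x) * (gauge K x * h2 x) := by
    obtain ⟨b, hb⟩ := hb2
    refine ((integrable_g_exp hK).const_mul b).mono'
      (hK.continuous_g.neg.rexp.measurable.mul
        (hK.continuous_g.measurable.mul hm2)).aestronglyMeasurable (Eventually.of_forall fun x => ?_)
    rw [norm_mul, norm_mul, Real.norm_eq_abs, Real.norm_eq_abs, Real.norm_eq_abs, abs_exp,
      abs_of_nonneg (gauge_nonneg x)]
    nlinarith [mul_nonneg (exp_pos (-gauge K x)).le (gauge_nonneg (s := K) x), hb x]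
  have hsplit : ∫ x, exp (-gauge K x) * (h1 x + h2 x - gauge K x * h2 x) =
      (∫ x, exp (-gauge K x) * h1 x) + (∫ x, exp (-gauge K x) * h2 x) -
        ∫ x, exp (-gauge K x) * (gauge K x * h2 x) := by
    rw [← integral_add hi1 hi2, ← integral_sub (hi1.fun_add hi2) hi3]
    congr 1; funext x; ring
  rw [hsplit, integral_g_exp hK hm2 hb2 (fun x r hr => by
    simp only [hh2, tau_smul K u x hr, gr_smul K x hr])] at h0
  show (∫ x, exp (-gauge K x) * h1 x) / _ = (n : ℝ) * ((∫ x, exp (-gauge K x) * h2 x) / _)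
  rw [← mul_div_assoc]
  congr 1
  linarith

/-- The integral inserting `n!`. -/
lemma gamma_insert (n : ℕ) {g : ℝ} (hg : 0 < g) :
    IntegrableOn (fun r : ℝ => g ^ (n + 1) * exp (-(g / r)) / r ^ (n + 2)) (Ioi 0) ∧
      ∫ r in Ioi (0 : ℝ), g ^ (n + 1) * exp (-(g / r)) / r ^ (n + 2) = (n ! : ℝ) := by
  set f : ℝ → ℝ := fun w => g ^ (n + 1) * (w ^ (n : ℝ) * exp (-(g * w))) with hf
  have hval : ∫ w in Ioi (0 : ℝ), f w = (n ! : ℝ) := by
    have h := Real.integral_rpow_mul_exp_neg_mul_Ioi (a := (n : ℝ) + 1) (by positivity) hg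
    simp only [add_sub_cancel_right] at h
    rw [hf, integral_const_mul, h, Real.Gamma_nat_eq_factorial,
      show (n : ℝ) + 1 = ((n + 1 : ℕ) : ℝ) by push_cast; ring, rpow_natCast,
      ← mul_assoc, ← mul_pow, one_div, mul_inv_cancel₀ hg.ne', one_pow, one_mul]
  have heq : ∀ r ∈ Ioi (0 : ℝ), (|(-1 : ℝ)| * r ^ ((-1 : ℝ) - 1)) • f (r ^ (-1 : ℝ)) =
      g ^ (n + 1) * exp (-(g / r)) / r ^ (n + 2) := by
    intro r hr
    simp only [hf, rpow_neg_one, smul_eq_mul, abs_neg, abs_one, one_mul]
    rw [show (-1 : ℝ) - 1 = -((2 : ℕ) : ℝ) by norm_num, rpow_neg (le_of_lt hr), rpow_natCast,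
      rpow_natCast, inv_pow, ← div_eq_mul_inv g r, pow_add r n 2]
    field_simp
  have h := integral_comp_rpow_Ioi f (by norm_num : (-1 : ℝ) ≠ 0)
  rw [hval, setIntegral_congr_fun measurableSet_Ioi heq] at h
  refine ⟨?_, h⟩
  by_contra hni
  rw [integral_undef hni] at h
  exact (by positivity : (n ! : ℝ) ≠ 0) h.symm

/-- The two dilations of the integrand. -/
lemma polar_swap (hK : Cen K) {F : E (n + 1) → ℝ} (hF : Measurable F) {B : ℝ}
    (hB : ∀ x, |F x| ≤ B) (hsupp : ∀ x, x ∉ K → F x = 0) :
    (∫ x, F x) * (n ! : ℝ) = ∫ r in Ioi (0 : ℝ),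
      ∫ y, exp (-gauge K y) * gauge K y ^ (n + 1) * (r ^ n * F (r • y)) := by
  have hae : ∀ᵐ x : E (n + 1), x ≠ 0 := by simp [ae_iff]
  have hgm := hK.continuous_g.measurable
  set Q : ℝ × E (n + 1) → ℝ := fun p =>
    F p.2 * (gauge K p.2 ^ (n + 1) * exp (-(gauge K p.2 / p.1)) / p.1 ^ (n + 2)) with hQ
  have hQm : Measurable Q := (hF.comp measurable_snd).mul ((((hgm.comp measurable_snd).pow_const _).mul
      (((hgm.comp measurable_snd).div measurable_fst).neg.exp)).div (measurable_fst.pow_const _))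
  have hQi : Integrable Q ((volume.restrict (Ioi (0 : ℝ))).prod volume) := by
    rw [integrable_prod_iff' hQm.aestronglyMeasurable]
    refine ⟨?_, ?_⟩
    · filter_upwards [hae] with x hx
      exact ((gamma_insert n (gauge_pos_of_ne hK hx)).1).const_mul (F x)
    · refine ((integrable_indicator_iff hK.cpt.isClosed.measurableSet).2
        (integrableOn_const (C := B * (n ! : ℝ)) hK.cpt.measure_lt_top.ne)).mono'
        hQm.aestronglyMeasurable.norm.prod_swap.integral_prod_right' ?_
      filter_upwards [hae] with x hx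
      have hg := gauge_pos_of_ne hK hx
      rw [Real.norm_eq_abs, abs_of_nonneg (integral_nonneg fun s => norm_nonneg _)]
      simp only [hQ, norm_mul]
      rw [integral_const_mul]
      by_cases hxK : x ∈ K
      · rw [indicator_of_mem hxK]
        have : ∫ r in Ioi (0 : ℝ), ‖gauge K x ^ (n + 1) * exp (-(gauge K x / r)) / r ^ (n + 2)‖ =
            (n ! : ℝ) := by
          rw [← (gamma_insert n hg).2]
          refine setIntegral_congr_fun measurableSet_Ioi fun r hr => ?_
          have hr' : (0 : ℝ) < r := hr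
          rw [Real.norm_eq_abs, abs_of_nonneg (by positivity)]
        rw [this, Real.norm_eq_abs]
        gcongr
        exact hB x
      · rw [indicator_of_notMem hxK, hsupp x hxK]; simp
  have hswap := integral_integral_swap (f := fun r x => Q (r, x)) hQi
  have e1 : ∫ x, ∫ r in Ioi (0 : ℝ), Q (r, x) = (∫ x, F x) * (n ! : ℝ) := by
    rw [← integral_mul_const]
    refine integral_congr_ae ?_
    filter_upwards [hae] with x hx
    simp only [hQ]
    rw [integral_const_mul, (gamma_insert n (gauge_pos_of_ne hK hx)).2]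
  rw [← e1, ← hswap]
  refine setIntegral_congr_fun measurableSet_Ioi fun r hr => ?_
  have hr' : (0 : ℝ) < r := hr
  have e : (fun y => exp (-gauge K y) * gauge K y ^ (n + 1) * (r ^ n * F (r • y))) =
      fun y => r ^ (n + 1) * (fun x => Q (r, x)) (r • y) := by
    funext y
    simp only [hQ, gauge_smul' K hr'.le, mul_pow]
    rw [mul_div_cancel_left₀ _ hr'.ne']
    field_simp
    ring
  rw [e, integral_const_mul, Measure.integral_comp_smul_of_nonneg volume (fun x => Q (r, x)) r
    (hR := hr'.le), finrank_euclideanSpace_fin, smul_eq_mul, ← mul_assoc,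
    mul_inv_cancel₀ (by positivity), one_mul]

lemma mem_dilate (hK : Cen K) {y : E (n + 1)} (hy : y ≠ 0) {r : ℝ} (hr : 0 < r) :
    r • y ∈ K ↔ r ≤ (gauge K y)⁻¹ := by
  conv_lhs => rw [← hK.cpt.isClosed.closure_eq]
  rw [← gauge_le_one_iff_mem_closure hK.conv hK.nhds_zero, gauge_smul' K hr.le, ← one_div,
    le_div_iff₀ (gauge_pos_of_ne hK hy)]

/-- The radial integral of the indicator of `K`. -/
lemma slice_ray (hK : Cen K) {y : E (n + 1)} (hy : y ≠ 0) (f : E (n + 1) → ℝ) :
    ∫ r in Ioi (0 : ℝ), r ^ n * K.indicator f (r • y) =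
      ∫ r in (0 : ℝ)..(gauge K y)⁻¹, r ^ n * f (r • y) := by
  rw [intervalIntegral.integral_of_le (inv_nonneg.2 (gauge_nonneg y)), ← Ioi_inter_Iic,
    ← setIntegral_indicator measurableSet_Iic]
  refine setIntegral_congr_fun measurableSet_Ioi fun r hr => ?_
  by_cases h : r • y ∈ K
  · rw [indicator_of_mem h, indicator_of_mem (show r ∈ Iic (gauge K y)⁻¹ from (mem_dilate hK hy hr).1 h)]
  · rw [indicator_of_notMem h,
      indicator_of_notMem (show r ∉ Iic (gauge K y)⁻¹ from fun h' => h ((mem_dilate hK hy hr).2 h')),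
      mul_zero]

/-- Integrability of the dilated integrand. -/
lemma polar_integrable (hK : Cen K) {f : E (n + 1) → ℝ} (hf : Continuous f) {B : ℝ}
    (hB : ∀ x, |K.indicator f x| ≤ B) :
    Integrable (fun p : ℝ × E (n + 1) => exp (-gauge K p.2) * gauge K p.2 ^ (n + 1) *
      (p.1 ^ n * K.indicator f (p.1 • p.2))) ((volume.restrict (Ioi (0 : ℝ))).prod volume) := by
  have hae : ∀ᵐ x : E (n + 1), x ≠ 0 := by simp [ae_iff]
  have hgm := hK.continuous_g.measurable
  have hB0 : 0 ≤ B := (abs_nonneg _).trans (hB 0)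
  have hPm : Measurable fun p : ℝ × E (n + 1) => exp (-gauge K p.2) * gauge K p.2 ^ (n + 1) *
      (p.1 ^ n * K.indicator f (p.1 • p.2)) :=
    (((hgm.comp measurable_snd).neg.exp).mul ((hgm.comp measurable_snd).pow_const _)).mul
      ((measurable_fst.pow_const _).mul
        ((hf.measurable.indicator hK.cpt.isClosed.measurableSet).comp
          (measurable_fst.smul measurable_snd)))
  have hbd : ∀ y : E (n + 1), y ≠ 0 → ∀ r ∈ Ioi (0 : ℝ),
      ‖r ^ n * K.indicator f (r • y)‖ ≤ (Ioc 0 (gauge K y)⁻¹).indicator (fun r => r ^ n * B) r := by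
    intro y hy r hr
    have hr' : (0 : ℝ) < r := hr
    rw [Real.norm_eq_abs, abs_mul, abs_of_nonneg (by positivity : (0 : ℝ) ≤ r ^ n)]
    by_cases h : r • y ∈ K
    · rw [indicator_of_mem (show r ∈ Ioc 0 (gauge K y)⁻¹ from ⟨hr', (mem_dilate hK hy hr').1 h⟩)]
      exact mul_le_mul_of_nonneg_left (hB _) (by positivity)
    · rw [indicator_of_notMem h, abs_zero, mul_zero]
      exact indicator_nonneg (fun s hs => mul_nonneg (pow_nonneg hs.1.le _) hB0) r
  have hbi : ∀ y : E (n + 1),
      Integrable ((Ioc 0 (gauge K y)⁻¹).indicator fun r : ℝ => r ^ n * B) := fun y =>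
    (integrable_indicator_iff measurableSet_Ioc).2
      ((Continuous.integrableOn_Icc (by fun_prop)).mono_set Ioc_subset_Icc_self)
  rw [integrable_prod_iff' hPm.aestronglyMeasurable]
  refine ⟨?_, ?_⟩
  · filter_upwards [hae] with y hy
    refine Integrable.const_mul ?_ (exp (-gauge K y) * gauge K y ^ (n + 1))
    refine (hbi y).restrict.mono' ?_ ?_
    · exact ((measurable_id.pow_const n).mul ((hf.measurable.indicator
        hK.cpt.isClosed.measurableSet).comp (measurable_id.smul_const y))).aestronglyMeasurable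
    · filter_upwards [ae_restrict_mem measurableSet_Ioi] with r hr
      exact hbd y hy r hr
  · refine (hK.integrable_exp.mul_const B).mono'
      hPm.aestronglyMeasurable.norm.prod_swap.integral_prod_right' ?_
    filter_upwards [hae] with y hy
    have hg := gauge_pos_of_ne hK hy
    rw [Real.norm_eq_abs, abs_of_nonneg (integral_nonneg fun s => norm_nonneg _)]
    have h1 : ∫ r in Ioi (0 : ℝ), ‖r ^ n * K.indicator f (r • y)‖ ≤
        (gauge K y)⁻¹ ^ (n + 1) / ((n : ℝ) + 1) * B := by
      refine (integral_mono_of_nonneg (Eventually.of_forall fun r => norm_nonneg _)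
        (hbi y).restrict ?_).trans (le_of_eq ?_)
      · filter_upwards [ae_restrict_mem measurableSet_Ioi] with r hr
        exact hbd y hy r hr
      · rw [setIntegral_indicator measurableSet_Ioc, inter_eq_right.2 Ioc_subset_Ioi_self,
          ← intervalIntegral.integral_of_le (inv_nonneg.2 hg.le),
          intervalIntegral.integral_mul_const, integral_pow, zero_pow (by omega), sub_zero]
    simp only [norm_mul (exp _ * _)]
    rw [integral_const_mul, Real.norm_eq_abs, abs_of_nonneg (by positivity)]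
    calc exp (-gauge K y) * gauge K y ^ (n + 1) * _
        ≤ exp (-gauge K y) * gauge K y ^ (n + 1) * ((gauge K y)⁻¹ ^ (n + 1) / ((n : ℝ) + 1) * B) :=
          mul_le_mul_of_nonneg_left h1 (by positivity)
      _ = exp (-gauge K y) * (B / ((n : ℝ) + 1)) := by rw [inv_pow]; field_simp
      _ ≤ exp (-gauge K y) * B := by
          gcongr
          exact div_le_self hB0 (by linarith [(Nat.cast_nonneg n : (0 : ℝ) ≤ n)])

/-- The volume in cone coordinates. -/
theorem integral_cone_polar (hK : Cen K) (u : E (n + 1)) {ps : ℝ → ℝ} (hps : Continuous ps) :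
    ∫ x in K, ps ⟪x, u⟫ =
      ((n : ℝ) + 1) * cone K (fun x => ∫ s in (0 : ℝ)..1, s ^ n * ps (s * tau K u x)) := by
  have hf : Continuous fun x : E (n + 1) => ps ⟪x, u⟫ :=
    hps.comp (continuous_id.inner continuous_const)
  obtain ⟨B, hB⟩ := hK.cpt.exists_bound_of_continuousOn hf.continuousOn
  have hKm := hK.cpt.isClosed.measurableSet
  have hB0 : 0 ≤ B := (norm_nonneg _).trans (hB 0 (interior_subset hK.int))
  have hB1 : ∀ x, |K.indicator (fun x => ps ⟪x, u⟫) x| ≤ B := fun x => by
    by_cases h : x ∈ K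
    · rw [indicator_of_mem h]; exact hB x h
    · rw [indicator_of_notMem h, abs_zero]; exact hB0
  have h := polar_swap hK (hf.measurable.indicator hKm) hB1 fun x hx => indicator_of_notMem hx _
  rw [integral_indicator hKm, integral_integral_swap (polar_integrable hK hf hB1)] at h
  have hright : ∫ y, ∫ r in Ioi (0 : ℝ), exp (-gauge K y) * gauge K y ^ (n + 1) *
        (r ^ n * K.indicator (fun x => ps ⟪x, u⟫) (r • y)) =
      ∫ y, exp (-gauge K y) * ∫ s in (0 : ℝ)..1, s ^ n * ps (s * tau K u y) := by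
    refine integral_congr_ae ?_
    filter_upwards [(show ∀ᵐ x : E (n + 1), x ≠ 0 by simp [ae_iff])] with y hy
    have hg := gauge_pos_of_ne hK hy
    rw [integral_const_mul, slice_ray hK hy, mul_assoc]
    congr 1
    have h := intervalIntegral.mul_integral_comp_mul_left (a := (0 : ℝ)) (b := (gauge K y)⁻¹)
      (f := fun s => s ^ n * ps (s * tau K u y)) (gauge K y)
    rw [mul_zero, mul_inv_cancel₀ hg.ne'] at h
    rw [← h, pow_succ', mul_assoc, ← intervalIntegral.integral_const_mul]
    congr 1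
    refine intervalIntegral.integral_congr fun r _ => ?_
    simp only [tau, mul_pow, real_inner_smul_left]
    field_simp
  rw [hright] at h
  rw [cone, Nat.factorial_succ, ← h]
  push_cast
  field_simp

/-- `d/ds (s^(n+1) ps(sτ))` integrated. -/
lemma interval_ftc {ps dps : ℝ → ℝ} (hps : ∀ t, HasDerivAt ps (dps t) t) (hpsc : Continuous dps)
    (τ : ℝ) :
    ∫ s in (0 : ℝ)..1, s ^ n * (((n : ℝ) + 1) * ps (s * τ) + s * τ * dps (s * τ)) = ps τ := by
  have hc : Continuous ps := continuous_iff_continuousAt.2 fun t => (hps t).continuousAt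
  have hd : ∀ s : ℝ, HasDerivAt (fun s => s ^ (n + 1) * ps (s * τ))
      (s ^ n * (((n : ℝ) + 1) * ps (s * τ) + s * τ * dps (s * τ))) s := by
    intro s
    refine ((hasDerivAt_pow (n + 1) s).mul
      ((hps (s * τ)).comp s ((hasDerivAt_id s).mul_const τ))).congr_deriv ?_
    simp [pow_succ]; ring
  rw [intervalIntegral.integral_eq_sub_of_hasDerivAt (fun s _ => hd s)
    ((by fun_prop : Continuous fun s : ℝ =>
      s ^ n * (((n : ℝ) + 1) * ps (s * τ) + s * τ * dps (s * τ))).intervalIntegrable _ _)]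
  simp

/-- `∫_K ((n+1) ps + t dps) = (n+1) ∫ ps(τ)` against the cone measure. -/
theorem integral_cone_scaling (hK : Cen K) (u : E (n + 1)) {ps dps : ℝ → ℝ}
    (hps : ∀ t, HasDerivAt ps (dps t) t) (hpsc : Continuous dps) :
    ∫ x in K, (((n : ℝ) + 1) * ps ⟪x, u⟫ + ⟪x, u⟫ * dps ⟪x, u⟫) =
      ((n : ℝ) + 1) * cone K (fun x => ps (tau K u x)) := by
  have hc : Continuous ps := continuous_iff_continuousAt.2 fun t => (hps t).continuousAt
  rw [integral_cone_polar hK u (ps := fun t => ((n : ℝ) + 1) * ps t + t * dps t) (by fun_prop)]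
  congr 2
  funext x
  exact interval_ftc hps hpsc _

/-- `∫_K dph(t) |u|² = (n+1) ∫ ph(τ) ∂g` against the cone measure. -/
theorem integral_deriv (hK : Cen K) (hn : 1 ≤ n) (u : E (n + 1)) {ph dph : ℝ → ℝ}
    (hph : ∀ t, HasDerivAt ph (dph t) t) (hphc : Continuous dph) :
    ‖u‖ ^ 2 * ∫ x in K, dph ⟪x, u⟫ =
      ((n : ℝ) + 1) * cone K (fun x => ph (tau K u x) * ⟪gr K x, u⟫) := by
  have hphcont : Continuous ph := continuous_iff_continuousAt.2 fun t => (hph t).continuousAt
  obtain ⟨m, rfl⟩ : ∃ m, n = m + 1 := ⟨n - 1, by omega⟩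
  obtain ⟨M, hM0, hM⟩ := exists_tau_bound hK u
  obtain ⟨C', hC'0, hC'⟩ := exists_gu_bound hK u
  obtain ⟨B, hB⟩ := (isCompact_Icc (a := -M) (b := M)).exists_bound_of_continuousOn
    hphcont.continuousOn
  obtain ⟨D, hD⟩ := (isCompact_Icc (a := -M) (b := M)).exists_bound_of_continuousOn
    hphc.continuousOn
  have hmgu : Measurable fun x => ⟪gr K x, u⟫ := (measurable_gr K).inner_const
  have hmt := measurable_tau hK u
  set μ := (volume : Measure (E (m + 1 + 1))).withDensity
    (fun x => ENNReal.ofReal (exp (-gauge K x))) with hμ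
  have : IsFiniteMeasure μ := by
    refine isFiniteMeasure_withDensity ?_
    rw [hK.lintegral_exp]
    exact ENNReal.ofReal_ne_top
  have hμi : ∀ h : E (m + 1 + 1) → ℝ, ∫ x, h x ∂μ = ∫ x, exp (-gauge K x) * h x := by
    intro h
    have hm : Measurable fun x => ENNReal.ofReal (exp (-gauge K x)) :=
      hK.continuous_g.neg.rexp.measurable.ennreal_ofReal
    rw [hμ, integral_withDensity_eq_integral_toReal_smul hm
      (Eventually.of_forall fun _ => by simp)]
    simp [ENNReal.toReal_ofReal (exp_pos _).le]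
  set A : ℝ → E (m + 1 + 1) → ℝ := fun s x => s ^ (m + 1) * dph (s * tau K u x) * ‖u‖ ^ 2 with hA
  set Bf : ℝ → E (m + 1 + 1) → ℝ := fun s x =>
    (((m : ℝ) + 1) * s ^ m * ph (s * tau K u x) +
      s ^ (m + 1) * (tau K u x * dph (s * tau K u x))) * ⟪gr K x, u⟫ with hBf
  have hsmem : ∀ s ∈ Icc (0 : ℝ) 1, ∀ x, s * tau K u x ∈ Icc (-M) M := fun s hs x =>
    abs_le.1 (by rw [abs_mul, abs_of_nonneg hs.1]
                 exact (mul_le_of_le_one_left (abs_nonneg _) hs.2).trans (hM x))
  have hdiv : ∀ s ∈ Icc (0 : ℝ) 1, ∫ x, A s x ∂μ = ∫ x, Bf s x ∂μ := by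
    intro s hs
    have hphs : ∀ t, HasDerivAt (fun t => ph (s * t)) (s * dph (s * t)) t := fun t => by
      refine ((hph (s * t)).comp t ((hasDerivAt_id t).const_mul s)).congr_deriv ?_
      simp [mul_comm]
    have h := cone_divergence hK u hphs (by fun_prop)
    rw [cone, cone, ← hμi, ← hμi, ← mul_div_assoc, div_left_inj' (by positivity)] at h
    push_cast at h
    have hbd : ∀ (f : E (m + 1 + 1) → ℝ) (b : ℝ), Measurable f → (∀ x, |f x| ≤ b) →
        Integrable f μ := fun f b hf hb =>
      Integrable.of_bound hf.aestronglyMeasurable b (Eventually.of_forall hb)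
    set F1 := fun x => s * dph (s * tau K u x) * (‖u‖ ^ 2 - tau K u x * ⟪gr K x, u⟫) with hF1
    set F3 := fun x => s ^ (m + 1) * (tau K u x * dph (s * tau K u x)) * ⟪gr K x, u⟫ with hF3
    have hi1 : Integrable F1 μ := hbd F1 (s * D * (‖u‖ ^ 2 + M * C')) (by fun_prop) fun x => by
      rw [hF1, abs_mul, abs_mul, abs_of_nonneg hs.1]
      refine mul_le_mul (mul_le_mul_of_nonneg_left (hD _ (hsmem s hs x)) hs.1)
        ((abs_sub _ _).trans ?_) (abs_nonneg _) (mul_nonneg hs.1 ((abs_nonneg _).trans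
          (hD _ (hsmem s hs x))))
      rw [abs_of_nonneg (sq_nonneg ‖u‖), abs_mul]
      gcongr
      exacts [hM x, hC' x]
    have hi3 : Integrable F3 μ := hbd F3 (1 * (M * D) * C') (by fun_prop) fun x => by
      rw [hF3, abs_mul, abs_mul, abs_mul, abs_of_nonneg (pow_nonneg hs.1 _)]
      have hD0 : 0 ≤ D := (abs_nonneg _).trans (hD _ (hsmem s hs x))
      gcongr
      exacts [pow_le_one₀ hs.1 hs.2, hM x, hD _ (hsmem s hs x), hC' x]
    have e1 : A s = fun x => s ^ m * F1 x + F3 x := by
      funext x; simp only [hA, hF1, hF3]; ring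
    have e2 : Bf s = fun x => s ^ m * (((m : ℝ) + 1) * (ph (s * tau K u x) * ⟪gr K x, u⟫)) +
        F3 x := by
      funext x; simp only [hBf, hF3]; ring
    have hi2 : Integrable (fun x => ph (s * tau K u x) * ⟪gr K x, u⟫) μ :=
      hbd _ (B * C') (by fun_prop) fun x => by
        rw [abs_mul]
        exact mul_le_mul (hB _ (hsmem s hs x)) (hC' x) (abs_nonneg _)
          ((abs_nonneg _).trans (hB _ (hsmem s hs x)))
    rw [e1, e2, integral_add (hi1.const_mul _) hi3,
      integral_add ((hi2.const_mul _).const_mul _) hi3, integral_const_mul, integral_const_mul,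
      integral_const_mul, h]
  have hint : ∀ (F : ℝ → E (m + 1 + 1) → ℝ) (b : ℝ), Measurable (Function.uncurry F) →
      (∀ s ∈ Icc (0 : ℝ) 1, ∀ x, |F s x| ≤ b) →
      ∫ s in (0 : ℝ)..1, ∫ x, F s x ∂μ = ∫ x, (∫ s in (0 : ℝ)..1, F s x) ∂μ := by
    intro F b hF hb
    have hi : Integrable (Function.uncurry F)
        ((volume.restrict (Ioc (0 : ℝ) 1)).prod μ) := by
      refine Integrable.of_bound hF.aestronglyMeasurable b ?_
      rw [← Measure.restrict_univ (μ := μ), Measure.prod_restrict]
      filter_upwards [ae_restrict_mem (measurableSet_Ioc.prod MeasurableSet.univ)] with p hp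
      exact hb p.1 (Ioc_subset_Icc_self hp.1) p.2
    rw [intervalIntegral.integral_of_le zero_le_one, integral_integral_swap hi]
    simp_rw [intervalIntegral.integral_of_le zero_le_one]
  have hA' := hint A (D * ‖u‖ ^ 2)
    (((measurable_fst.pow_const _).mul (hphc.measurable.comp
      (measurable_fst.mul (hmt.comp measurable_snd)))).mul_const _) fun s hs x => by
      rw [hA, abs_mul, abs_mul, abs_of_nonneg (pow_nonneg hs.1 _),
        abs_of_nonneg (sq_nonneg ‖u‖)]
      gcongr
      exact (mul_le_of_le_one_left (abs_nonneg _) (pow_le_one₀ hs.1 hs.2)).trans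
        (hD _ (hsmem s hs x))
  have hB' := hint Bf ((((m : ℝ) + 1) * B + M * D) * C')
    (((((measurable_fst.pow_const _).const_mul _).mul (hphcont.measurable.comp
      (measurable_fst.mul (hmt.comp measurable_snd)))).add ((measurable_fst.pow_const _).mul
        ((hmt.comp measurable_snd).mul (hphc.measurable.comp
          (measurable_fst.mul (hmt.comp measurable_snd)))))).mul (hmgu.comp measurable_snd))
    fun s hs x => by
      have hB0 : 0 ≤ B := (abs_nonneg _).trans (hB _ (hsmem s hs x))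
      have hD0 : 0 ≤ D := (abs_nonneg _).trans (hD _ (hsmem s hs x))
      rw [hBf, abs_mul]
      refine mul_le_mul ((abs_add_le _ _).trans (add_le_add ?_ ?_)) (hC' x) (abs_nonneg _)
        (by positivity)
      · rw [abs_mul, abs_mul, abs_of_nonneg (by positivity : (0 : ℝ) ≤ (m : ℝ) + 1),
          abs_of_nonneg (pow_nonneg hs.1 _)]
        exact mul_le_mul (mul_le_of_le_one_right (by positivity) (pow_le_one₀ hs.1 hs.2))
          (hB _ (hsmem s hs x)) (abs_nonneg _) (by positivity)
      · rw [abs_mul, abs_mul, abs_of_nonneg (pow_nonneg hs.1 _)]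
        exact (mul_le_of_le_one_left (by positivity) (pow_le_one₀ hs.1 hs.2)).trans
          (mul_le_mul (hM x) (hD _ (hsmem s hs x)) (abs_nonneg _) hM0)
  rw [intervalIntegral.integral_congr (g := fun s => ∫ x, Bf s x ∂μ)
    (fun s hs => hdiv s (by rwa [uIcc_of_le zero_le_one] at hs))] at hA'
  rw [hA'] at hB'
  have eA : ∀ x, (∫ s in (0 : ℝ)..1, A s x) =
      (∫ s in (0 : ℝ)..1, s ^ (m + 1) * dph (s * tau K u x)) * ‖u‖ ^ 2 := fun x => by
    simp only [hA]; rw [intervalIntegral.integral_mul_const]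
  have eB : ∀ x, (∫ s in (0 : ℝ)..1, Bf s x) = ph (tau K u x) * ⟪gr K x, u⟫ := by
    intro x
    simp only [hBf]
    rw [intervalIntegral.integral_mul_const]
    congr 1
    rw [← interval_ftc (n := m) hph hphc (tau K u x)]
    refine intervalIntegral.integral_congr fun s _ => ?_
    simp only [pow_succ]; ring
  simp_rw [eA, eB] at hB'
  rw [hμi, hμi] at hB'
  rw [integral_cone_polar hK u hphc, cone, cone, ← hB']
  simp only [← mul_assoc (exp _), integral_mul_const]
  ring

/-- The weighted Fisher constraint of contact directions. -/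
theorem fisher_sum (hK : Cen K) (hn : 1 ≤ n) (hball : Metric.closedBall (0 : E (n + 1)) 1 ⊆ K)
    {ι : Type*} [Fintype ι] {u : ι → E (n + 1)} {c : ι → ℝ} (hu : ∀ i, ‖u i‖ = 1)
    (hc : ∀ i, 0 ≤ c i) (hid : ∀ x : E (n + 1), ∑ i, c i * ⟪u i, x⟫ ^ 2 = ‖x‖ ^ 2)
    (ph dph : ι → ℝ → ℝ) (hph : ∀ i t, HasDerivAt (ph i) (dph i t) t)
    (hphc : ∀ i, Continuous (dph i)) :
    ∑ i, c i * ∫ x in K, (2 * dph i ⟪x, u i⟫ - ((n : ℝ) + 1) * ph i ⟪x, u i⟫ ^ 2 -
        2 * ⟪x, u i⟫ * ph i ⟪x, u i⟫ * dph i ⟪x, u i⟫) ≤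
      ((n : ℝ) + 1) * (volume K).toReal := by
  have hcph : ∀ i, Continuous (ph i) := fun i =>
    continuous_iff_continuousAt.2 fun t => (hph i t).continuousAt
  have hgr : ∀ x, ‖gr K x‖ ^ 2 ≤ 1 := by
    intro x
    rcases eq_or_ne (gr K x) 0 with h0 | h0
    · simp [h0]
    have h1 := hK.gr_le_one x (hball (mem_closedBall_zero_iff.2
      (show ‖‖gr K x‖⁻¹ • gr K x‖ ≤ 1 by
        rw [norm_smul, norm_inv, norm_norm, inv_mul_cancel₀ (norm_ne_zero_iff.2 h0)])))
    rw [real_inner_smul_right, real_inner_self_eq_norm_sq, pow_two,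
      inv_mul_cancel_left₀ (norm_ne_zero_iff.2 h0)] at h1
    exact pow_le_one₀ (norm_nonneg _) h1
  have hint : ∀ {f : ℝ → ℝ} (v : E (n + 1)), Continuous f →
      IntegrableOn (fun x => f ⟪x, v⟫) K volume := fun v hf =>
    ((hf.comp (continuous_id.inner continuous_const)).continuousOn).integrableOn_compact hK.cpt
  have hstep : ∀ i, ∫ x in K, (2 * dph i ⟪x, u i⟫ - ((n : ℝ) + 1) * ph i ⟪x, u i⟫ ^ 2 -
      2 * ⟪x, u i⟫ * ph i ⟪x, u i⟫ * dph i ⟪x, u i⟫) ≤
      ((n : ℝ) + 1) * cone K (fun x => ⟪gr K x, u i⟫ ^ 2) := by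
    intro i
    have h1 := integral_deriv hK hn (u i) (hph i) (hphc i)
    rw [hu i, one_pow, one_mul] at h1
    have h2 := integral_cone_scaling hK (u i) (ps := fun t => ph i t ^ 2)
      (dps := fun t => 2 * ph i t * dph i t)
      (fun t => ((hph i t).pow 2).congr_deriv (by simp)) (by fun_prop)
    have e : (fun x => 2 * dph i ⟪x, u i⟫ - ((n : ℝ) + 1) * ph i ⟪x, u i⟫ ^ 2 -
        2 * ⟪x, u i⟫ * ph i ⟪x, u i⟫ * dph i ⟪x, u i⟫) = fun x => 2 * dph i ⟪x, u i⟫ -
        (((n : ℝ) + 1) * ph i ⟪x, u i⟫ ^ 2 + ⟪x, u i⟫ * (2 * ph i ⟪x, u i⟫ * dph i ⟪x, u i⟫)) := by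
      funext x; ring
    rw [e, integral_sub ((hint _ (hphc i)).const_mul 2)
      (hint (f := fun t => ((n : ℝ) + 1) * ph i t ^ 2 + t * (2 * ph i t * dph i t)) _ (by fun_prop)),
      integral_const_mul, h1, h2]
    obtain ⟨M, _, hM⟩ := exists_tau_bound hK (u i)
    obtain ⟨C', _, hC'⟩ := exists_gu_bound hK (u i)
    obtain ⟨B, hB⟩ := (isCompact_Icc (a := -M) (b := M)).exists_bound_of_continuousOn
      (hcph i).continuousOn
    have hmgu : Measurable fun x => ⟪gr K x, u i⟫ := (measurable_gr K).inner_const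
    have hmt := measurable_tau hK (u i)
    have hi1 := integrable_cone hK (h := fun x => ph i (tau K (u i) x) * ⟪gr K x, u i⟫)
      (by fun_prop) ⟨B * C', fun x => by
        rw [abs_mul]; exact mul_le_mul (hB _ (abs_le.1 (hM x))) (hC' x) (abs_nonneg _)
          ((abs_nonneg _).trans (hB _ (abs_le.1 (hM x))))⟩
    have hi2 := integrable_cone hK (h := fun x => ph i (tau K (u i) x) ^ 2)
      (by fun_prop) ⟨B ^ 2, fun x => by
        rw [abs_pow]; exact pow_le_pow_left₀ (abs_nonneg _) (hB _ (abs_le.1 (hM x))) 2⟩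
    have hi3 := integrable_cone hK (h := fun x => ⟪gr K x, u i⟫ ^ 2)
      (by fun_prop) ⟨C' ^ 2, fun x => by
        rw [abs_pow]; exact pow_le_pow_left₀ (abs_nonneg _) (hC' x) 2⟩
    simp only [cone]
    rw [mul_left_comm, ← mul_sub, ← mul_div_assoc, ← sub_div, ← integral_const_mul,
      ← integral_sub (hi1.const_mul 2) hi2]
    refine mul_le_mul_of_nonneg_left ?_ (by positivity)
    refine div_le_div_of_nonneg_right (integral_mono ((hi1.const_mul 2).sub hi2) hi3 fun x => ?_)
      (by positivity)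
    have h := mul_nonneg (exp_pos (-gauge K x)).le
      (sq_nonneg (ph i (tau K (u i) x) - ⟪gr K x, u i⟫))
    nlinarith
  calc ∑ i, c i * _ ≤ ∑ i, c i * (((n : ℝ) + 1) * cone K (fun x => ⟪gr K x, u i⟫ ^ 2)) :=
        Finset.sum_le_sum fun i _ => mul_le_mul_of_nonneg_left (hstep i) (hc i)
    _ = ((n : ℝ) + 1) * cone K (fun x => ‖gr K x‖ ^ 2) := by
        have hi3 : ∀ i, Integrable fun x => exp (-gauge K x) * ⟪gr K x, u i⟫ ^ 2 := fun i =>
          hK.integrable_comp (phi := fun v => ⟪v, u i⟫ ^ 2) (by fun_prop)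
        simp only [cone, ← hid, Finset.mul_sum]
        rw [integral_finsetSum _ fun i _ => ?_, Finset.sum_div, Finset.mul_sum]
        · refine Finset.sum_congr rfl fun i _ => ?_
          rw [show (fun x => exp (-gauge K x) * (c i * ⟪u i, gr K x⟫ ^ 2)) =
            fun x => c i * (exp (-gauge K x) * ⟪gr K x, u i⟫ ^ 2) by
              funext x; rw [real_inner_comm]; ring, integral_const_mul]
          ring
        · refine ((hi3 i).const_mul (c i)).congr (Eventually.of_forall fun x => ?_)
          simp only [real_inner_comm (u i)]; ring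
    _ ≤ ((n : ℝ) + 1) * (volume K).toReal := by
        refine mul_le_mul_of_nonneg_left ?_ (by positivity)
        rw [cone, div_le_iff₀ (by positivity), mul_comm, ← hK.integral_exp]
        refine integral_mono (hK.integrable_comp (phi := fun v => ‖v‖ ^ 2) (by fun_prop))
          hK.integrable_exp fun x => ?_
        exact mul_le_of_le_one_right (exp_pos _).le (hgr x)

end Vale.Agent.P237.Fisher
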